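import Mathlib.Analysis.Normed.Module.HahnBanach
import Mathlib.Analysis.Normed.Operator.Banach
import Mathlib.Analysis.RCLike.Basic
import Mathlib.Analysis.SpecificLimits.Normed
import Mathlib.Analysis.Normed.Group.InfiniteSum
import Mathlib.Analysis.RCLike.Lemmas
import Mathlib.Analysis.Normed.Operator.NormedSpace
import Mathlib.Analysis.Normed.Operator.Bilinear
import Mathlib.Analysis.Normed.Group.Quotient
import Mathlib.Analysis.LocallyConvex.SeparatingDual

/-! A criterion for separable infinite-dimensional quotients of Banach spaces. -/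

set_option maxSynthPendingDepth 3

namespace Vale.Agent.P129

open Set Submodule TopologicalSpace
open scoped Topology

variable {𝕜 : Type*} [RCLike 𝕜] {X : Type*} [NormedAddCommGroup X] [NormedSpace 𝕜 X]

local instance instProperFin (E : Submodule 𝕜 (StrongDual 𝕜 X)) [FiniteDimensional 𝕜 E] :
    ProperSpace E := FiniteDimensional.proper_rclike 𝕜 E

lemma exists_norming (E : Submodule 𝕜 (StrongDual 𝕜 X)) [FiniteDimensional 𝕜 E] :
    ∃ F : Finset X, (∀ x ∈ F, ‖x‖ ≤ 1) ∧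
      ∀ u ∈ E, u ≠ 0 → ∃ x ∈ F, ‖u‖ ≤ 2 * ‖u x‖ := by
  classical
  set U : X → Set E := fun x => {u : E | 1 < 2 * ‖(u : StrongDual 𝕜 X) x‖ ∧ ‖x‖ ≤ 1}
  have hU : ∀ x, IsOpen (U x) := by
    intro x
    by_cases hx : ‖x‖ ≤ 1
    · simp only [U, hx, and_true]
      exact isOpen_lt continuous_const (continuous_const.mul
        (((ContinuousLinearMap.apply 𝕜 𝕜 x).continuous.comp continuous_subtype_val).norm))
    · simp only [U, hx, and_false]
      exact isOpen_empty
  have hcov : Metric.sphere (0 : E) 1 ⊆ ⋃ x, U x := by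
    intro u hu
    have hu1 : ‖(u : StrongDual 𝕜 X)‖ = 1 := mem_sphere_zero_iff_norm.mp hu
    obtain ⟨x, hx, hx'⟩ := ContinuousLinearMap.exists_lt_apply_of_lt_opNorm
      (u : StrongDual 𝕜 X) (r := 1/2) (by rw [hu1]; norm_num)
    exact Set.mem_iUnion.mpr ⟨x, by linarith, hx.le⟩
  obtain ⟨s, hs⟩ := (isCompact_sphere (0 : E) 1).elim_finite_subcover U hU hcov
  refine ⟨s.filter (fun x => ‖x‖ ≤ 1), fun x hx => (Finset.mem_filter.mp hx).2, ?_⟩
  intro u hu hu0
  have hn : 0 < ‖u‖ := norm_pos_iff.mpr hu0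
  set v : E := ((‖u‖⁻¹ : ℝ) : 𝕜) • ⟨u, hu⟩
  have hv : v ∈ Metric.sphere (0 : E) 1 := by
    refine mem_sphere_zero_iff_norm.mpr ?_
    show ‖((‖u‖⁻¹ : ℝ) : 𝕜) • u‖ = 1
    rw [norm_smul, RCLike.norm_ofReal, abs_inv, abs_norm, inv_mul_cancel₀ hn.ne']
  obtain ⟨x, hxs, hx⟩ := Set.mem_iUnion₂.mp (hs hv)
  refine ⟨x, Finset.mem_filter.mpr ⟨hxs, hx.2⟩, ?_⟩
  have h1 := hx.1
  change 1 < 2 * ‖((‖u‖⁻¹ : ℝ) : 𝕜) • u x‖ at h1
  rw [norm_smul, RCLike.norm_ofReal, abs_inv, abs_norm] at h1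
  rw [← div_eq_inv_mul, mul_div, lt_div_iff₀ hn] at h1
  linarith

lemma exists_rep (E : Submodule 𝕜 (StrongDual 𝕜 X)) (F : Finset X) (hF1 : ∀ x ∈ F, ‖x‖ ≤ 1)
    (hF2 : ∀ u ∈ E, u ≠ 0 → ∃ x ∈ F, ‖u‖ ≤ 2 * ‖u x‖) (ψ : StrongDual 𝕜 E) :
    ∃ y ∈ Submodule.span 𝕜 (F : Set X), ‖y‖ ≤ 2 * ‖ψ‖ ∧ ∀ u : E, (u : StrongDual 𝕜 X) y = ψ u := by
  classical
  let L : E →ₗ[𝕜] (F → 𝕜) := LinearMap.pi fun x =>
    ((ContinuousLinearMap.apply 𝕜 𝕜 (x : X)).toLinearMap.comp E.subtype)
  have hLapp : ∀ (u : E) (x : F), L u x = (u : StrongDual 𝕜 X) (x : X) := fun u x => rfl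
  have hL : ∀ u : E, ‖u‖ ≤ 2 * ‖L u‖ := by
    intro u
    by_cases h0 : (u : StrongDual 𝕜 X) = 0
    · have : ‖u‖ = 0 := by simp [Submodule.coe_norm, h0]
      rw [this]; positivity
    · obtain ⟨x, hx, hle⟩ := hF2 u u.2 h0
      refine le_trans hle ?_
      have := norm_le_pi_norm (L u) ⟨x, hx⟩
      rw [hLapp] at this
      linarith
  have hinj : Function.Injective L := by
    rw [injective_iff_map_eq_zero]
    intro u hu
    have := hL u
    rw [hu, norm_zero, mul_zero] at this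
    exact norm_le_zero_iff.mp this
  let e := LinearEquiv.ofInjective L hinj
  let φ₀ : (LinearMap.range L) →ₗ[𝕜] 𝕜 := ψ.toLinearMap.comp e.symm.toLinearMap
  have hb : ∀ z, ‖φ₀ z‖ ≤ (2 * ‖ψ‖) * ‖z‖ := by
    intro z
    have h1 : ‖φ₀ z‖ ≤ ‖ψ‖ * ‖e.symm z‖ := ψ.le_opNorm _
    have h2 := hL (e.symm z)
    have h3 : L (e.symm z) = (z : F → 𝕜) := congrArg Subtype.val (e.apply_symm_apply z)
    rw [h3] at h2
    calc ‖φ₀ z‖ ≤ ‖ψ‖ * ‖e.symm z‖ := h1
      _ ≤ ‖ψ‖ * (2 * ‖(z : F → 𝕜)‖) := mul_le_mul_of_nonneg_left h2 (norm_nonneg ψ)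
      _ = (2 * ‖ψ‖) * ‖z‖ := by rw [Submodule.coe_norm]; ring
  obtain ⟨G, hG, hGn⟩ := exists_extension_norm_eq (LinearMap.range L) (φ₀.mkContinuous _ hb)
  have hGn' : ‖G‖ ≤ 2 * ‖ψ‖ := by
    rw [hGn]; exact φ₀.mkContinuous_norm_le (by positivity) hb
  let c : F → 𝕜 := fun x => G (Pi.single x 1)
  have hGv : ∀ v : F → 𝕜, G v = ∑ x, v x * c x := by
    intro v
    conv_lhs => rw [pi_eq_sum_univ' v]
    simp [map_sum, c]
  let s : F → 𝕜 := fun x => if c x = 0 then 0 else (‖c x‖⁻¹ : ℝ) • (starRingEnd 𝕜) (c x)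
  have hs : ‖s‖ ≤ 1 := by
    rw [pi_norm_le_iff_of_nonneg zero_le_one]
    intro x
    by_cases h : c x = 0
    · simp [s, h]
    · simp [s, h, norm_smul]
  have hsum : G s = ((∑ x, ‖c x‖ : ℝ) : 𝕜) := by
    rw [hGv, RCLike.ofReal_sum]
    refine Finset.sum_congr rfl fun x _ => ?_
    by_cases h : c x = 0
    · simp [s, h]
    · have hn : ‖c x‖ ≠ 0 := norm_ne_zero_iff.mpr h
      simp only [s, h, if_false, RCLike.real_smul_eq_coe_mul]
      rw [mul_assoc, RCLike.conj_mul]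
      norm_cast
      field_simp
  have hc : ∑ x, ‖c x‖ ≤ 2 * ‖ψ‖ := by
    have h1 := G.le_opNorm s
    rw [hsum, RCLike.norm_ofReal, abs_of_nonneg (Finset.sum_nonneg fun x _ => norm_nonneg _)] at h1
    calc ∑ x, ‖c x‖ ≤ ‖G‖ * ‖s‖ := h1
      _ ≤ ‖G‖ * 1 := mul_le_mul_of_nonneg_left hs (norm_nonneg G)
      _ ≤ 2 * ‖ψ‖ := by linarith
  refine ⟨∑ x, c x • (x : X), Submodule.sum_mem _ fun x _ =>
    Submodule.smul_mem _ _ (Submodule.subset_span x.2), ?_, ?_⟩
  · calc ‖∑ x, c x • (x : X)‖ ≤ ∑ x, ‖c x • (x : X)‖ := norm_sum_le _ _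
      _ ≤ ∑ x, ‖c x‖ := by
        refine Finset.sum_le_sum fun x _ => ?_
        rw [norm_smul]
        exact mul_le_of_le_one_right (norm_nonneg _) (hF1 x x.2)
      _ ≤ 2 * ‖ψ‖ := hc
  · intro u
    have h1 : G (L u) = φ₀ (e u) := hG (e u)
    have h2 : φ₀ (e u) = ψ u := by simp [φ₀]
    rw [← h2, ← h1, hGv, map_sum]
    refine Finset.sum_congr rfl fun x _ => ?_
    rw [map_smul, hLapp, smul_eq_mul, mul_comm]

lemma exists_unit_kernel (W : Submodule 𝕜 (StrongDual 𝕜 X)) (hW : ¬ FiniteDimensional 𝕜 W)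
    (K : Finset X) (Φ : Finset (StrongDual 𝕜 W)) :
    ∃ g : W, ‖g‖ = 1 ∧ (∀ x ∈ K, (g : StrongDual 𝕜 X) x = 0) ∧ ∀ φ ∈ Φ, φ g = 0 := by
  classical
  let L : W →ₗ[𝕜] ((K → 𝕜) × (Φ → 𝕜)) := LinearMap.prod
    (LinearMap.pi fun x => (ContinuousLinearMap.apply 𝕜 𝕜 (x : X)).toLinearMap.comp W.subtype)
    (LinearMap.pi fun φ => (φ : StrongDual 𝕜 W).toLinearMap)
  have hni : ¬ Function.Injective L := fun h => hW (FiniteDimensional.of_injective L h)
  rw [injective_iff_map_eq_zero] at hni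
  push Not at hni
  obtain ⟨v, hv, hv0⟩ := hni
  refine ⟨((‖v‖⁻¹ : ℝ) : 𝕜) • v, ?_, ?_, ?_⟩
  · rw [norm_smul, RCLike.norm_ofReal, abs_inv, abs_norm, inv_mul_cancel₀ (norm_ne_zero_iff.mpr hv0)]
  · intro x hx
    have h : L v = 0 := hv
    have h2 : (v : StrongDual 𝕜 X) x = 0 := congrFun (congrArg Prod.fst h) ⟨x, hx⟩
    simp [h2]
  · intro φ hφ
    have h2 : φ v = 0 := congrFun (congrArg Prod.snd hv) ⟨φ, hφ⟩
    rw [map_smul, h2, smul_zero]

/-- A sequence in `W` with finite norming sets annihilated by later terms. -/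
lemma exists_block (W : Submodule 𝕜 (StrongDual 𝕜 X)) (hW : ¬ FiniteDimensional 𝕜 W)
    (φ : ℕ → StrongDual 𝕜 W) :
    ∃ (g : ℕ → W) (F : ℕ → Finset X), (∀ n, ‖g n‖ = 1) ∧ (∀ n, ∀ x ∈ F n, ‖x‖ ≤ 1) ∧
      (∀ n, ∀ u ∈ (Submodule.span 𝕜 (g '' Set.Iio n)).map W.subtype, u ≠ 0 →
        ∃ x ∈ F n, ‖u‖ ≤ 2 * ‖u x‖) ∧
      (∀ n i, n ≤ i → ∀ x ∈ F n, (g i : StrongDual 𝕜 X) x = 0) ∧
      (∀ k i, k ≤ i → φ k (g i) = 0) := by
  classical
  have hN : ∀ S : Finset W, ∃ F : Finset X, (∀ x ∈ F, ‖x‖ ≤ 1) ∧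
      ∀ u ∈ (Submodule.span 𝕜 (S : Set W)).map W.subtype, u ≠ 0 → ∃ x ∈ F, ‖u‖ ≤ 2 * ‖u x‖ :=
    fun S => exists_norming _
  choose N hN1 hN2 using hN
  have hP := fun (K : Finset X) (n : ℕ) =>
    exists_unit_kernel W hW K ((Finset.range (n + 1)).image φ)
  choose P hP1 hP2 hP3 using hP
  let st : ℕ → Finset W × Finset X := fun m => Nat.rec (∅, ∅)
    (fun n p => (insert (P (p.2 ∪ N p.1) n) p.1, p.2 ∪ N p.1)) m
  let g : ℕ → W := fun n => P ((st n).2 ∪ N (st n).1) n
  have hst : ∀ n, (st (n + 1)).1 = insert (g n) (st n).1 ∧ (st (n + 1)).2 = (st n).2 ∪ N (st n).1 :=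
    fun n => ⟨rfl, rfl⟩
  have hS : ∀ n, ((st n).1 : Set W) = g '' Set.Iio n := by
    intro n
    induction n with
    | zero => simp [st]
    | succ n ih =>
      rw [(hst n).1, Finset.coe_insert, ih, ← Set.image_insert_eq]
      congr 1
      ext j; simp; try omega
  have hK : ∀ n i, n < i → N (st n).1 ⊆ (st i).2 := by
    intro n i hni
    induction i with
    | zero => omega
    | succ i ih =>
      rw [(hst i).2]
      rcases Nat.lt_succ_iff_lt_or_eq.mp hni with h | h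
      · exact (ih h).trans Finset.subset_union_left
      · subst h; exact Finset.subset_union_right
  refine ⟨g, fun n => N (st n).1, fun n => hP1 _ _, fun n => hN1 _, ?_, ?_, ?_⟩
  · intro n u hu hu0
    rw [← hS n] at hu
    exact hN2 _ u hu hu0
  · intro n i hni x hx
    refine hP2 _ _ x ?_
    rcases Nat.lt_or_eq_of_le hni with h | h
    · exact Finset.mem_union_left _ (hK n i h hx)
    · subst h; exact Finset.mem_union_right _ hx
  · intro k i hki
    exact hP3 _ _ _ (Finset.mem_image.mpr ⟨k, Finset.mem_range.mpr (by omega), rfl⟩)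

lemma surjective_of_half {E G : Type*} [NormedAddCommGroup E] [NormedSpace 𝕜 E] [CompleteSpace E]
    [NormedAddCommGroup G] [NormedSpace 𝕜 G] (T : E →L[𝕜] G) (C : ℝ)
    (h : ∀ z, ∃ x, ‖x‖ ≤ C * ‖z‖ ∧ ‖z - T x‖ ≤ (1/2) * ‖z‖) : Function.Surjective T := by
  choose f hf1 hf2 using h
  intro z
  let r : ℕ → G := fun n => Nat.rec z (fun _ w => w - T (f w)) n
  have hr : ∀ n, ‖r n‖ ≤ (1/2 : ℝ)^n * ‖z‖ := by
    intro n
    induction n with
    | zero => simp [r]
    | succ n ih =>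
      calc ‖r (n+1)‖ ≤ (1/2) * ‖r n‖ := hf2 _
        _ ≤ (1/2) * ((1/2)^n * ‖z‖) := by linarith
        _ = _ := by ring
  have hsum : Summable fun n => f (r n) := by
    refine Summable.of_norm_bounded (g := fun n => (|C| * ‖z‖) * (1/2 : ℝ)^n)
      ((summable_geometric_two).mul_left _) fun n => ?_
    calc ‖f (r n)‖ ≤ C * ‖r n‖ := hf1 _
      _ ≤ |C| * ‖r n‖ := mul_le_mul_of_nonneg_right (le_abs_self C) (norm_nonneg _)
      _ ≤ |C| * ((1/2)^n * ‖z‖) := mul_le_mul_of_nonneg_left (hr n) (abs_nonneg C)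
      _ = _ := by ring
  refine ⟨∑' n, f (r n), ?_⟩
  have hT := (T.hasSum hsum.hasSum).tendsto_sum_nat
  have he : ∀ n, ∑ i ∈ Finset.range n, T (f (r i)) = z - r n := by
    intro n
    induction n with
    | zero => simp [r]
    | succ n ih =>
      rw [Finset.sum_range_succ, ih]
      show _ = z - (r n - T (f (r n)))
      abel
  simp only [he] at hT
  have h0 : Filter.Tendsto r Filter.atTop (𝓝 0) := by
    refine squeeze_zero_norm hr ?_
    simpa using (tendsto_pow_atTop_nhds_zero_of_lt_one (by norm_num : (0:ℝ) ≤ 1/2)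
      (by norm_num)).mul_const ‖z‖
  exact tendsto_nhds_unique hT (by simpa using tendsto_const_nhds.sub h0)

lemma quotient_of_approx {E G : Type*} [NormedAddCommGroup E] [NormedSpace 𝕜 E] [CompleteSpace E]
    [NormedAddCommGroup G] [NormedSpace 𝕜 G] [CompleteSpace G] (T : E →L[𝕜] G) (C : ℝ)
    (hinf : ¬ FiniteDimensional 𝕜 (LinearMap.range T.toLinearMap))
    (hsep : IsSeparable (Set.range T))
    (h : ∀ z ∈ (LinearMap.range T.toLinearMap).topologicalClosure,
      ∃ x, ‖x‖ ≤ C * ‖z‖ ∧ ‖z - T x‖ ≤ (1/2) * ‖z‖) :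
    ∃ M : Submodule 𝕜 E, IsClosed (M : Set E) ∧ ¬ FiniteDimensional 𝕜 (E ⧸ M) ∧
      SeparableSpace (E ⧸ M) := by
  let Z := (LinearMap.range T.toLinearMap).topologicalClosure
  let T' : E →L[𝕜] Z := T.codRestrict Z (fun x => Submodule.le_topologicalClosure _ ⟨x, rfl⟩)
  have : CompleteSpace Z := (Submodule.isClosed_topologicalClosure _).completeSpace_coe
  have hsurj : Function.Surjective T' := surjective_of_half T' C fun z => h z z.2
  refine ⟨LinearMap.ker T'.toLinearMap, T'.isClosed_ker, ?_, ?_⟩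
  · intro hfin
    have : FiniteDimensional 𝕜 Z :=
      (T'.toLinearMap.quotKerEquivOfSurjective hsurj).finiteDimensional
    exact hinf (Submodule.finiteDimensional_of_le (Submodule.le_topologicalClosure _))
  · have : SeparableSpace Z := by
      have hh : IsSeparable (Z : Set G) := hsep.closure.mono (fun z hz => hz)
      exact hh.separableSpace
    let q := LinearMap.ker T'.toLinearMap
    let e₀ := T'.toLinearMap.quotKerEquivOfSurjective hsurj
    have hinv : Continuous e₀.symm := by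
      have he : (e₀.symm : Z → E ⧸ q) ∘ T' = Submodule.Quotient.mk := by
        funext x
        simp only [Function.comp]
        rw [LinearEquiv.symm_apply_eq]
        rfl
      rw [((T'.isOpenMap hsurj).isQuotientMap T'.continuous hsurj).continuous_iff, he]
      exact continuous_quot_mk
    exact e₀.symm.surjective.denseRange.separableSpace hinv

lemma finiteDimensional_of_pairing {A B : Type*} [AddCommGroup A] [Module 𝕜 A] [AddCommGroup B]
    [Module 𝕜 B] [FiniteDimensional 𝕜 B] (ev : A →ₗ[𝕜] (B →ₗ[𝕜] 𝕜))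
    (h : Function.Injective ev) : FiniteDimensional 𝕜 A :=
  FiniteDimensional.of_injective ev h

lemma finiteDimensional_of_range {E V : Type*} [NormedAddCommGroup E] [NormedSpace 𝕜 E]
    [NormedAddCommGroup V] [NormedSpace 𝕜 V] (T : E →L[𝕜] StrongDual 𝕜 V)
    (h : ∀ v, (∀ x, T x v = 0) → v = 0)
    (hfin : FiniteDimensional 𝕜 (LinearMap.range T.toLinearMap)) : FiniteDimensional 𝕜 V := by
  let ev : V →ₗ[𝕜] (LinearMap.range T.toLinearMap →ₗ[𝕜] 𝕜) :=
    { toFun := fun v =>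
        { toFun := fun z => (z : StrongDual 𝕜 V) v
          map_add' := fun a b => rfl
          map_smul' := fun c a => rfl }
      map_add' := fun a b => by ext z; simp
      map_smul' := fun c a => by ext z; simp }
  refine finiteDimensional_of_pairing ev ?_
  rw [injective_iff_map_eq_zero]
  intro v hv
  exact h v fun x => LinearMap.congr_fun hv ⟨T x, x, rfl⟩

/-- Restriction of the evaluations to a subspace of the dual. -/
noncomputable def evalOn (V : Submodule 𝕜 (StrongDual 𝕜 X)) : X →L[𝕜] StrongDual 𝕜 V :=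
  LinearMap.mkContinuous
    { toFun := fun x => (ContinuousLinearMap.apply 𝕜 𝕜 x).comp V.subtypeL
      map_add' := fun x y => by ext v; simp
      map_smul' := fun c x => by ext v; simp }
    1 (fun x => by
      rw [one_mul]
      refine ContinuousLinearMap.opNorm_le_bound _ (norm_nonneg x) fun v => ?_
      simpa [mul_comm] using (v : StrongDual 𝕜 X).le_opNorm x)

@[simp] lemma evalOn_apply (V : Submodule 𝕜 (StrongDual 𝕜 X)) (x : X) (v : V) :
    evalOn V x v = (v : StrongDual 𝕜 X) x := rfl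

theorem quotient_of_restriction [CompleteSpace X] (W : Submodule 𝕜 (StrongDual 𝕜 X))
    (hW : ¬ FiniteDimensional 𝕜 W) (hsep : IsSeparable (Set.range (evalOn W))) :
    ∃ M : Submodule 𝕜 X, IsClosed (M : Set X) ∧ ¬ FiniteDimensional 𝕜 (X ⧸ M) ∧
      SeparableSpace (X ⧸ M) := by
  classical
  obtain ⟨cs, hcs, hcsd⟩ := hsep
  have hne : cs.Nonempty := by
    rcases cs.eq_empty_or_nonempty with h | h
    · have := hcsd ⟨0, rfl⟩
      simp [h] at this
    · exact h
  obtain ⟨φ, rfl⟩ := hcs.exists_eq_range hne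
  obtain ⟨g, F, hg, hF, hnorm, hkill, hφ⟩ := exists_block W hW φ
  set V : Submodule 𝕜 (StrongDual 𝕜 X) := (Submodule.span 𝕜 (Set.range g)).map W.subtype with hV
  have hVW : V ≤ W := Submodule.map_subtype_le W _
  let ι : V →L[𝕜] W := V.subtypeL.codRestrict W (fun v => hVW v.2)
  have hdec : ∀ (n : ℕ) (v : V), ∃ u w : W, u ∈ Submodule.span 𝕜 (g '' Set.Iio n) ∧
      w ∈ Submodule.span 𝕜 (g '' Set.Ici n) ∧ ι v = u + w := by
    intro n v
    obtain ⟨a, ha, hav⟩ := Submodule.mem_map.mp v.2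
    have hr : Set.range g = g '' Set.Iio n ∪ g '' Set.Ici n := by
      rw [← Set.image_union, Set.Iio_union_Ici, Set.image_univ]
    rw [hr, Submodule.span_union, Submodule.mem_sup] at ha
    obtain ⟨u, hu, w, hw, huw⟩ := ha
    refine ⟨u, w, hu, hw, ?_⟩
    rw [huw]
    exact Subtype.ext hav.symm
  have htail : ∀ n, ∀ w ∈ Submodule.span 𝕜 (g '' Set.Ici n),
      (∀ y ∈ Submodule.span 𝕜 (F n : Set X), (w : StrongDual 𝕜 X) y = 0) ∧
      ∀ k ≤ n, φ k w = 0 := by
    intro n w hw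
    induction hw using Submodule.span_induction with
    | mem a ha =>
      obtain ⟨i, hi, rfl⟩ := ha
      refine ⟨fun y hy => ?_, fun k hk => hφ k i (le_trans hk hi)⟩
      induction hy using Submodule.span_induction with
      | mem x hx => exact hkill n i hi x hx
      | zero => simp
      | add x y _ _ h1 h2 => simp [h1, h2]
      | smul c x _ h1 => simp [h1]
    | zero => simp
    | add a b _ _ h1 h2 =>
      exact ⟨fun y hy => by simp [h1.1 y hy, h2.1 y hy], fun k hk => by simp [h1.2 k hk, h2.2 k hk]⟩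
    | smul c a _ h1 =>
      exact ⟨fun y hy => by simp [h1.1 y hy], fun k hk => by simp [h1.2 k hk]⟩
  have hproj : ∀ n, ∀ u ∈ Submodule.span 𝕜 (g '' Set.Iio n),
      ∀ w ∈ Submodule.span 𝕜 (g '' Set.Ici n), ‖u‖ ≤ 2 * ‖u + w‖ := by
    intro n u hu w hw
    by_cases h0 : (u : StrongDual 𝕜 X) = 0
    · have : ‖u‖ = 0 := by simp [Submodule.coe_norm, h0]
      rw [this]; positivity
    · obtain ⟨x, hx, hle⟩ := hnorm n u (Submodule.mem_map_of_mem hu) h0
      refine le_trans hle ?_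
      have hz := (htail n w hw).1 x (Submodule.subset_span hx)
      have h1 := ((u + w : W) : StrongDual 𝕜 X).le_opNorm x
      have h2 : ((u + w : W) : StrongDual 𝕜 X) x = (u : StrongDual 𝕜 X) x := by simp [hz]
      rw [h2] at h1
      have h3 : ‖((u + w : W) : StrongDual 𝕜 X)‖ * ‖x‖ ≤ ‖u + w‖ * 1 :=
        mul_le_mul_of_nonneg_left (hF n x hx) (norm_nonneg _)
      linarith
  have hVinf : ¬ FiniteDimensional 𝕜 V := by
    intro hfin
    have : ProperSpace V := FiniteDimensional.proper_rclike 𝕜 V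
    let gv : ℕ → V := fun n =>
      ⟨(g n : StrongDual 𝕜 X), Submodule.mem_map_of_mem (Submodule.subset_span ⟨n, rfl⟩)⟩
    obtain ⟨a, -, σ, hσ, ha⟩ := (isCompact_sphere (0 : V) 1).tendsto_subseq (x := gv)
      (fun n => by rw [mem_sphere_zero_iff_norm]; exact hg n)
    obtain ⟨N, hN⟩ := Metric.cauchySeq_iff.mp ha.cauchySeq (1/2) (by norm_num)
    have h1 := hN N le_rfl (N + 1) (Nat.le_succ N)
    have hlt : σ N < σ (N + 1) := hσ (Nat.lt_succ_self N)
    have h2 := hproj (σ (N + 1)) (g (σ N)) (Submodule.subset_span ⟨σ N, hlt, rfl⟩)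
      (- g (σ (N + 1))) (Submodule.neg_mem _ (Submodule.subset_span ⟨σ (N + 1), Set.mem_Ici.mpr le_rfl, rfl⟩))
    rw [hg, ← sub_eq_add_neg] at h2
    have h3 : dist (gv (σ N)) (gv (σ (N + 1))) = ‖g (σ N) - g (σ (N + 1))‖ := dist_eq_norm _ _
    simp only [Function.comp] at h1
    rw [h3] at h1
    linarith
  let T := evalOn V
  let R : StrongDual 𝕜 W → StrongDual 𝕜 V := fun ψ => ψ.comp ι
  have hR : Continuous R := ((ContinuousLinearMap.compL 𝕜 V W 𝕜).flip ι).continuous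
  have hrange : Set.range T ⊆ closure (Set.range (fun k => R (φ k))) := by
    rintro _ ⟨x, rfl⟩
    have h1 : evalOn W x ∈ closure (Set.range φ) := hcsd ⟨x, rfl⟩
    have h2 := image_closure_subset_closure_image hR ⟨_, h1, rfl⟩
    rw [← Set.range_comp] at h2
    exact h2
  have hZ : ((LinearMap.range T.toLinearMap).topologicalClosure : Set (StrongDual 𝕜 V)) ⊆
      closure (Set.range (fun k => R (φ k))) := by
    intro z hz
    have h := closure_mono hrange
    rw [closure_closure] at h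
    exact h hz
  have happrox : ∀ z ∈ (LinearMap.range T.toLinearMap).topologicalClosure,
      ∃ x, ‖x‖ ≤ 2 * ‖z‖ ∧ ‖z - T x‖ ≤ (1/2) * ‖z‖ := by
    intro z hz'
    by_cases hz : z = 0
    · exact ⟨0, by simp [hz], by simp [hz]⟩
    have hzpos : 0 < ‖z‖ := norm_pos_iff.mpr hz
    obtain ⟨_, ⟨k, rfl⟩, hk⟩ := Metric.mem_closure_iff.mp (hZ hz') (‖z‖ / 8) (by positivity)
    set E := (Submodule.span 𝕜 (g '' Set.Iio k)).map W.subtype
    have hEV : E ≤ V := Submodule.map_mono (Submodule.span_mono (Set.image_subset_range _ _))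
    let j : E →L[𝕜] V := E.subtypeL.codRestrict V (fun u => hEV u.2)
    let ψ : StrongDual 𝕜 E := z.comp j
    have hψ : ‖ψ‖ ≤ ‖z‖ := by
      refine ContinuousLinearMap.opNorm_le_bound _ (norm_nonneg _) fun u => ?_
      exact z.le_opNorm (j u)
    obtain ⟨y, hy, hyn, hyE⟩ := exists_rep E (F k) (hF k) (hnorm k) ψ
    refine ⟨y, le_trans hyn (by linarith), ?_⟩
    refine ContinuousLinearMap.opNorm_le_bound _ (by positivity) fun v => ?_
    obtain ⟨u, w, hu, hw, hv⟩ := hdec k v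
    have huE : (u : StrongDual 𝕜 X) ∈ E := Submodule.mem_map_of_mem hu
    have hwV : (w : StrongDual 𝕜 X) ∈ V :=
      Submodule.mem_map_of_mem (Submodule.span_mono (Set.image_subset_range _ _) hw)
    let uV : V := j ⟨_, huE⟩
    let wV : V := ⟨_, hwV⟩
    have hvv : v = uV + wV := by
      have h1 : ((ι v : W) : StrongDual 𝕜 X) = ((u + w : W) : StrongDual 𝕜 X) := by rw [hv]
      exact Subtype.ext h1
    have e1 : T y uV = z uV := hyE ⟨_, huE⟩
    have e2 : T y wV = 0 := (htail k w hw).1 y hy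
    have e3 : R (φ k) wV = 0 := (htail k w hw).2 k le_rfl
    have e4 : (z - T y) v = (z - R (φ k)) wV := by
      simp [hvv, e1, e2, e3, map_add]
    have hun : ‖u‖ ≤ 2 * ‖v‖ := by
      have := hproj k u hu w hw
      rw [← hv] at this
      exact this
    have hwn : ‖wV‖ ≤ 3 * ‖v‖ := by
      have h1 : wV = v - uV := by rw [hvv]; abel
      have h2 : ‖uV‖ = ‖u‖ := rfl
      calc ‖wV‖ = ‖v - uV‖ := by rw [h1]
        _ ≤ ‖v‖ + ‖uV‖ := norm_sub_le _ _
        _ ≤ 3 * ‖v‖ := by linarith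
    rw [e4]
    rw [dist_eq_norm] at hk
    calc ‖(z - R (φ k)) wV‖
        ≤ ‖z - R (φ k)‖ * ‖wV‖ := ContinuousLinearMap.le_opNorm _ _
      _ ≤ (‖z‖ / 8) * (3 * ‖v‖) := mul_le_mul hk.le hwn (norm_nonneg _) (by positivity)
      _ ≤ (1/2) * ‖z‖ * ‖v‖ := by nlinarith [mul_nonneg hzpos.le (norm_nonneg v)]
  refine quotient_of_approx T 2 ?_ ((Set.countable_range _).isSeparable.closure.mono hrange) happrox
  exact fun hfin => hVinf (finiteDimensional_of_range T
    (fun v hv => Subtype.ext (ContinuousLinearMap.ext hv)) hfin)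

theorem restriction_of_quotient (M : Submodule 𝕜 X) (hc : IsClosed (M : Set X))
    (hinf : ¬ FiniteDimensional 𝕜 (X ⧸ M)) (hsep : SeparableSpace (X ⧸ M)) :
    ∃ W : Submodule 𝕜 (StrongDual 𝕜 X), ¬ FiniteDimensional 𝕜 W ∧
      IsSeparable (Set.range (evalOn W)) := by
  have : IsClosed (M : Set X) := hc
  let W : Submodule 𝕜 (StrongDual 𝕜 X) :=
    { carrier := {f | ∀ m ∈ M, f m = 0}
      add_mem' := fun {a b} ha hb m hm => by simp [ha m hm, hb m hm]
      zero_mem' := fun m _ => by simp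
      smul_mem' := fun c a ha m hm => by simp [ha m hm] }
  refine ⟨W, ?_, ?_⟩
  · intro hfin
    let q : X →L[𝕜] X ⧸ M := LinearMap.mkContinuous M.mkQ 1
      (fun x => by simpa using Submodule.Quotient.norm_mk_le M x)
    let ev : (X ⧸ M) →ₗ[𝕜] (W →ₗ[𝕜] 𝕜) := M.liftQ
      { toFun := fun x => (evalOn W x).toLinearMap
        map_add' := fun a b => by simp
        map_smul' := fun c a => by simp }
      (fun m hm => LinearMap.mem_ker.mpr (LinearMap.ext fun f => f.2 m hm))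
    refine hinf (finiteDimensional_of_pairing ev ?_)
    rw [injective_iff_map_eq_zero]
    intro a ha
    by_contra hne
    obtain ⟨f, hf⟩ := SeparatingDual.exists_ne_zero (R := 𝕜) hne
    obtain ⟨x, rfl⟩ := Submodule.Quotient.mk_surjective M a
    have hmem : f.comp q ∈ W := fun m hm => by
      show f (Submodule.Quotient.mk m) = 0
      rw [(Submodule.Quotient.mk_eq_zero M).mpr hm, map_zero]
    exact hf (LinearMap.congr_fun ha ⟨_, hmem⟩)
  · let G : (X ⧸ M) →ₗ[𝕜] StrongDual 𝕜 W := M.liftQ (evalOn W).toLinearMap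
      (fun m hm => LinearMap.mem_ker.mpr (ContinuousLinearMap.ext fun f => f.2 m hm))
    have hG : Continuous G :=
      (isQuotientMap_quot_mk (X := X)).continuous_iff.mpr (evalOn W).continuous
    have : Set.range (evalOn W) = Set.range G := by
      refine Set.Subset.antisymm ?_ ?_
      · rintro _ ⟨x, rfl⟩; exact ⟨Submodule.Quotient.mk x, rfl⟩
      · rintro _ ⟨a, rfl⟩
        obtain ⟨x, rfl⟩ := Submodule.Quotient.mk_surjective M a
        exact ⟨x, rfl⟩
    rw [this]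
    exact isSeparable_range hG

end Vale.Agent.P129
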